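import Vale.Agent.P352X.R.IX.A
import Vale.Agent.P352Z.P352X.R.FAR

open Vale.Agent.P352G

/-!
# P352X, row IX, part A: invariance of the three point function (helper80)
-/

set_option linter.all false

open MeasureTheory Filter Topology
open scoped SchwartzMap ComplexConjugate ENNReal ContDiff

namespace Vale.Agent.P352X.IXH

open Vale.Agent.P352 Vale.Agent.P352.GF Vale.Agent.P352.BW Vale.Agent.P352.H246
open Vale.Agent.P352.H496 Vale.Agent.P352.H755 Vale.Agent.P352.H15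
open UniformSpace (Completion)

noncomputable section

/-! ## invariant tensors -/

variable {D : Type*} [NormedAddCommGroup D] [InnerProductSpace ℂ D] [GrD D] (c : CtxZ D)

/-- `t0` as a continuous linear map -/
def t0LZ : S3 →L[ℂ] ℂ where
  toFun := c.t0
  map_add' := Far.t0_addZ c
  map_smul' a F := by
    simp only [CtxZ.t0, map_smul, smul_eq_mul, RingHom.id_apply, Finset.mul_sum, mul_left_comm a]
  cont := by
    unfold CtxZ.t0
    fun_prop

theorem t0_eqZ (F : S3) : c.t0 F =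
    ∑ P : I2 × I2 × I2, (ue P.1 * (ua P.2.1 * ue P.2.2)) • c.t P.1 P.2.1 P.2.2 F := by
  have e : ∀ (I J : I2), ∑ K, (ue I * (ua J * ue K)) • c.t I J K F =
      ue I • ua J • ∑ n, (eta n : ℂ) • c.t I J (n, n) F := fun I J => by
    rw [← sum_ue fun K => c.t I J K F]
    simp only [Finset.smul_sum, smul_smul]
  simp only [Fintype.sum_prod_type (α₁ := I2), e, ← Finset.smul_sum]
  rw [sum_ue fun I => ∑ J, ua J • ∑ n, (eta n : ℂ) • c.t I J (n, n) F]
  simp only [CtxZ.t0, Fintype.sum_prod_type, Finset.smul_sum, smul_eq_mul, Finset.mul_sum, ua]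
  refine Finset.sum_congr rfl fun _ _ => Finset.sum_congr rfl fun _ _ =>
    Finset.sum_congr rfl fun _ _ => Finset.sum_congr rfl fun _ _ => ?_
  push_cast
  ring

theorem t0_invZ [Fact c.tp] {L : Ix → V} {a : V} (hL : IsLor L) (ha : ∀ m, be (L m) = eta m * va m) {F G : S3}
    (h : ∀ x y z, G (x, y, z) = F (sim 1 L a x, sim 1 L a y, sim 1 L a z)) :
    c.t0 F = c.t0 G := by
  rw [t0_eqZ, t0_eqZ]
  exact tri_inv (ue_inv hL) (ua_inv ha) (fun I J K => c.t I J K F) (fun I J K => c.t I J K G)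
    fun I J K => c.hTP.cov 1 L a I J K F G one_pos hL h (Or.inl rfl)

variable {c} in
theorem wTT_covZ {e : Bool} {w : I2 → I2 → S2 →L[ℂ] Completion D} (hw : TP2 c.Q c.T e w)
    {L : Ix → V} (hL : IsLor L) {F G : S2}
    (h : ∀ x y, G (x, y) = F (sim 1 L 0 x, sim 1 L 0 y)) :
    ∃ κ : ℂ, Far.wTT w F = Ug c.Q 1 L 0 (Far.wTT w G) + κ • c.Om := by
  obtain ⟨κ, hκ⟩ := two_inv (ue_inv hL) (fun I J => w I J F)
    (fun I J => Ue c.Q 1 L 0 (w I J G)) c.Om fun I J => hw.cov 1 L 0 I J F G one_pos hL h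
  refine ⟨κ, ?_⟩
  rw [wTT_eq, hκ, wTT_eq, map_sum]
  simp only [← Ug_apply c.Q one_pos hL, map_smul]

/-! ## infinitesimal invariance -/

theorem t0_traZ [Fact c.tp] {F : V × V × V → ℂ} (hF : Dc F) (y : V) :
    c.t0 (sch fun z => fderiv ℝ F z (y, y, y)) = 0 := by
  have h1 : ∀ t : ℝ, Dc fun x => F ((1 : _ →L[ℝ] _) x + t • (y, y, y)) := fun t =>
    Api4.dc_add_const hF _
  have := der0 (t0LZ c) (g := fun _ => 1) (a := fun t => t • (y, y, y)) (g' := 0) (a' := (y, y, y))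
    (hasDerivAt_const _ _) (by simpa using (hasDerivAt_id (0 : ℝ)).smul_const (y, y, y)) rfl
    (zero_smul _ _) hF h1 fun t => t0_invZ c (a := t • y) H496.isLor_one be_bas fun x y z => by
      rw [Api4.sch_apply (h1 t), Api4.sch_apply hF, sim_one, sim_one, sim_one]
      rfl
  simp only [ContinuousLinearMap.zero_apply, zero_add] at this
  exact this

variable {c} in
theorem t0_rotZ [Fact c.tp] (hg : GRPZ c) {F : V × V × V → ℂ} (hF : Dc F) (i : Fin 2) :
    c.t0 (sch fun z => fderiv ℝ F z (mL i z.1, mL i z.2.1, mL i z.2.2)) = 0 := by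
  set g : ℝ → V × V × V →L[ℝ] V × V × V :=
    fun t => 1 + t • tr3 (mL i) + t ^ 2 • tr3 (((1 / 2 : ℝ) • beL).smulRight va) with hg'
  have e : ∀ t z, g t z + 0 = (gap (t • e2 i) z.1, gap (t • e2 i) z.2.1, gap (t • e2 i) z.2.2) :=
    fun t z => by simp only [add_zero, gap_eq]; rfl
  have h1 : ∀ t : ℝ, Dc fun x => F (g t x + 0) := fun t => by
    have := Api4.dc_comp_cle hF (ContinuousLinearEquiv.equivOfInverse (tr3 (gapL (t • e2 i)))
      (tr3 (gapL (-(t • e2 i)))) (fun z => by simp [tr3, gap_gap, Prod.map])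
      fun z => by simp [tr3, gap_gap, Prod.map])
    simpa [e, tr3, Prod.map] using this
  have hd : HasDerivAt g (tr3 (mL i)) 0 := by
    have := ((hasDerivAt_const (0 : ℝ) (1 : V × V × V →L[ℝ] V × V × V)).add
      ((hasDerivAt_id (0 : ℝ)).smul_const (tr3 (mL i)))).add
      ((hasDerivAt_pow 2 (0 : ℝ)).smul_const (tr3 (((1 / 2 : ℝ) • beL).smulRight va)))
    exact this.congr_deriv (by simp)
  have := der0 (t0LZ c) (a := fun _ => 0) (a' := 0) hd (hasDerivAt_const _ _) (by simp [hg']) rfl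
    hF h1 fun t => t0_invZ c (a := 0) (hg.lga (t • e2 i)).1
      (fun m => by rw [← be_bas, ← be_gap (z := bas m 1) (u := t • e2 i), ← (hg.lga _).2, sim_bas])
      fun x y z => by
      rw [Api4.sch_apply (h1 t), Api4.sch_apply hF, e]
      simp only [(hg.lga _).2]
  simp only [add_zero] at this
  exact this

/-! ## the bilinear form `X` -/

/-- the three point function with the middle leg smeared with `h` -/
def XZ (Ψ : V × V → ℂ) (h : V → ℂ) : ℂ :=
  c.t0 (sch fun z : V × V × V => Ψ (z.1, z.2.2) * h z.2.1)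

variable {c} {Ψ Ψ' : V × V → ℂ} {h h' : V → ℂ}

theorem X_add_lZ (a : Dc Ψ) (a' : Dc Ψ') (b : Dc h) :
    XZ c (fun z => Ψ z + Ψ' z) h = XZ c Ψ h + XZ c Ψ' h := by
  simp only [XZ, add_mul]
  rw [Api4.sch_add (Far.dc_tri a b) (Far.dc_tri a' b), Far.t0_addZ]

theorem X_add_rZ (a : Dc Ψ) (b : Dc h) (b' : Dc h') :
    XZ c Ψ (fun z => h z + h' z) = XZ c Ψ h + XZ c Ψ h' := by
  simp only [XZ, mul_add]
  rw [Api4.sch_add (Far.dc_tri a b) (Far.dc_tri a b'), Far.t0_addZ]

theorem X_mul_lZ (a : Dc Ψ) (b : Dc h) (s : ℂ) : XZ c (fun z => s * Ψ z) h = s * XZ c Ψ h := by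
  simp only [XZ, mul_assoc]
  rw [Api4.sch_const_mul s (Far.dc_tri a b)]
  exact (t0LZ c).map_smul s _

theorem X_mul_rZ (a : Dc Ψ) (b : Dc h) (s : ℂ) : XZ c Ψ (fun z => s * h z) = s * XZ c Ψ h := by
  rw [← X_mul_lZ a b]
  simp only [XZ, mul_left_comm s, mul_assoc]

theorem X_traZ [Fact c.tp] (a : Dc Ψ) (b : Dc h) (y : V) :
    XZ c (fun z => fderiv ℝ Ψ z (y, y)) h + XZ c Ψ (fun z => fderiv ℝ h z y) = 0 := by
  have := t0_traZ c (Far.dc_tri a b) y
  simp only [fd_tri a b] at this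
  rwa [Api4.sch_add (Far.dc_tri (Api4.dc_fderiv a contDiff_const) b)
    (Far.dc_tri a (Api4.dc_fderiv b contDiff_const)), Far.t0_addZ] at this

theorem X_rotZ [Fact c.tp] (hg : GRPZ c) (a : Dc Ψ) (b : Dc h) (i : Fin 2) :
    XZ c (fun z => fderiv ℝ Ψ z (mL i z.1, mL i z.2)) h +
      XZ c Ψ (fun z => fderiv ℝ h z (mL i z)) = 0 := by
  have := t0_rotZ hg (Far.dc_tri a b) i
  simp only [fd_tri a b] at this
  rwa [Api4.sch_add (Far.dc_tri (Api4.dc_fderiv a (X := fun z => (mL i z.1, mL i z.2))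
    ((mL i).prodMap (mL i)).contDiff) b)
    (Far.dc_tri a (Api4.dc_fderiv b (mL i).contDiff)), Far.t0_addZ] at this

end

end Vale.Agent.P352X.IXH
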