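import Vale.Agent.P352X.R.IX.C
import Vale.Agent.P352Z.P352X.R.CONK.Near
import Vale.Agent.P352Z.P352X.R.IX.B

open Vale.Agent.P352G

/-!
# P352X, row IX, part C: bounds that are uniform in the cutoff and in the profile (helper80)
-/

set_option linter.all false

open MeasureTheory Filter Topology
open scoped SchwartzMap ComplexConjugate ENNReal ContDiff

namespace Vale.Agent.P352X.IXH

open Vale.Agent.P352 Vale.Agent.P352.GF Vale.Agent.P352.BW Vale.Agent.P352.H246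
open Vale.Agent.P352.H496 Vale.Agent.P352.H755 Vale.Agent.P352.H15
open UniformSpace (Completion)
open Complex (I)
open CK.Near (Nb ex_Nb)

noncomputable section

variable {D : Type*} [NormedAddCommGroup D] [InnerProductSpace ℂ D] [GrD D] {c : CtxZ D}

theorem X_gSZ (j : ℕ) {g : P3 → ℝ} {R : ℝ → ℝ} {Ψ : V × V → ℂ} (h : Tst g) (hR : Tst R) (hΨ : Dc Ψ)
    {L : ℝ} (hL : 1 ≤ L) : ‖XZ c Ψ (pr (gS j g L) R)‖ ≤ ‖(L : ℂ) * XZ c Ψ (pr (kL g L) R)‖ := by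
  rw [pr_gS, X_mul_rZ hΨ (Far.dc_pr (Ap.tst_kL h (by linarith)) hR), norm_mul, norm_mul,
    Complex.norm_real, Complex.norm_real, Real.norm_of_nonneg (by positivity),
    Real.norm_of_nonneg (by linarith)]
  exact mul_le_mul_of_nonneg_right
    (div_le_self (by linarith) (one_le_pow₀ (Real.one_le_sqrt.2 hL))) (norm_nonneg _)

/-- far parts of the plane do not contribute -/
theorem X_farZ (hf : FARZ c) (j : ℕ) {g : P3 → ℝ} {R : ℝ → ℝ} {Ψ : V × V → ℂ} (h : Tst g)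
    (h0 : (0 : P3) ∉ tsupport g) (hR : Tst R) (hΨ : Dc Ψ) {η : ℝ} (hη : 0 < η) :
    ∀ᶠ L in atTop, ‖XZ c Ψ (pr (gS j g L) R)‖ ≤ η := by
  have := (hf.far g R Ψ h h0 hR hΨ).norm
  rw [norm_zero] at this
  filter_upwards [this.eventually_le_const hη, eventually_ge_atTop (1 : ℝ)] with L h1 h2
  exact (X_gSZ j h hR hΨ h2).trans h1

/-- bounds in terms of `i` derivatives of the profile -/
def BndZ (c : CtxZ D) (i m : ℕ) : Prop := ∀ j g r, KC j g → ∃ C A : ℝ, 0 ≤ C ∧ 1 ≤ A ∧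
  ∀ L Ψ R M, A ≤ L → Dc Ψ → tsupport Ψ ⊆ Metric.closedBall 0 r → Tst R →
    tsupport R ⊆ Set.Icc (-1) 1 → Nb i R M → ‖XZ c Ψ (pr (gS j g L) R)‖ ≤ C * sn m (sch Ψ) * M

theorem bnd0Z [Fact c.tp] (t : T3Z c) : ∃ m, BndZ c (m + 1) m := by
  obtain ⟨κ, hκ, m1, h1⟩ := far_bdZ t
  obtain ⟨m2, C2, hC2, h2⟩ := X_bdZ c
  set m := max m1 m2
  obtain ⟨C3, hC3, h3⟩ := sn_pr m
  refine ⟨m, fun j g r hg => ?_⟩
  have t1 : Tst fun y => g y - 2 ^ j / 4 * kL g (1 / 4) y :=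
    Ap.cs_sub hg.tst (Ap.cs_cmul _ (Ap.tst_kL hg.tst (by norm_num)))
  obtain ⟨C1, A, hC1, hA, h1⟩ := h1 _ r t1
    (notMem_tsupport_iff_eventuallyEq.2 (hg.hom.mono fun y hy => sub_eq_zero.2 hy))
  have hq : 0 < (4 : ℝ) ^ κ - 1 := sub_pos.2 (Real.one_lt_rpow (by norm_num) hκ)
  set B := 4 * A * ((4 * A) ^ m * (4 * A) ^ m * 2 ^ m * sn m (sch (cx g))) with hB
  have hB0 : 0 ≤ B := by have := Lie.sn_nonneg m (sch (cx g)); positivity
  refine ⟨(C2 * C3 * B + C1 * ((4 : ℝ) ^ κ - 1)⁻¹) * 2 ^ m, A, by positivity, hA,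
    fun L Ψ R M hL hΨ hr hR hs hN => ?_⟩
  have s1 := Lie.sn_nonneg m (sch Ψ)
  have s2 := Lie.sn_nonneg m (sch (cx R))
  have := tele (u := fun L => ‖XZ c Ψ (pr (gS j g L) R)‖)
    (a := C2 * sn m (sch Ψ) * (C3 * B * sn m (sch (cx R))))
    (b := C1 * sn m (sch Ψ) * sn m (sch (cx R))) hκ hA (by positivity) (fun L a1 a2 => ?_)
    (fun L a1 => ?_) hL
  · refine this.trans (le_trans (le_of_eq (b := (C2 * C3 * B + C1 * ((4 : ℝ) ^ κ - 1)⁻¹) *
      sn m (sch Ψ) * sn m (sch (cx R))) (by ring)) ?_)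
    exact (mul_le_mul_of_nonneg_left (sn_Nb hR hs hN) (by positivity)).trans_eq (by ring)
  · have t2 := tst_gS j hg.tst (by linarith : 0 < L)
    refine (h2 _ _ hΨ (Far.dc_pr t2 hR)).trans (mul_le_mul (sn_up hC2 (le_max_right _ _) _)
      ((Lie.sn_mono (le_max_right _ _) _).trans ((h3 _ _ t2 hR).trans ?_)) (Lie.sn_nonneg _ _)
      (by positivity))
    exact mul_le_mul_of_nonneg_right (mul_le_mul_of_nonneg_left
      (sn_gS m j hg.tst (by linarith) a2) hC3) s2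
  · beta_reduce
    rw [gS_split j g (by linarith) R, X_add_rZ hΨ (Far.dc_pr (tst_gS j hg.tst (by linarith)) hR)
      (Far.dc_pr (tst_gS j t1 (by linarith)) hR)]
    refine (norm_add_le _ _).trans (add_le_add le_rfl ((X_gSZ j t1 hR hΨ (by linarith)).trans
      ((h1 L Ψ R (by linarith) hΨ hr hR hs).trans ?_)))
    have a3 : 0 ≤ L ^ (-κ) := Real.rpow_nonneg (by linarith) _
    have s3 := Lie.sn_nonneg m1 (sch (cx R))
    calc _ ≤ C1 * L ^ (-κ) * sn m (sch Ψ) * sn m (sch (cx R)) := by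
          gcongr <;> exact Lie.sn_mono (le_max_left _ _) _
      _ = _ := by ring

theorem bnd_stepZ [Fact c.tp] {i m : ℕ} (h : BndZ c (i + 1) m) : ∃ m', BndZ c i m' := by
  obtain ⟨χ, Cp, tχ, sχ, hCp, prim⟩ := CK.prim_row
  have sχ' : tsupport χ ⊆ Set.Icc (-1) 1 := sχ.trans (Set.Icc_subset_Icc_left (by norm_num))
  obtain ⟨Mχ, hχ⟩ := ex_Nb tχ (i + 1)
  have hMχ := hχ.nonneg
  obtain ⟨m1, C1, hC1, h1⟩ := (SB.sn m zero_le_one).comp
    (LineDeriv.lineDerivOpCLM ℝ S2 ((vb, vb) : V × V))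
  refine ⟨max m m1, fun j g r hg => ?_⟩
  obtain ⟨C, A, hC, hA, h⟩ := h j g r hg
  refine ⟨C * C1 * (1 + Mχ + 2 * Cp) + C * Mχ, A, by positivity, hA,
    fun L Ψ ρ M hL hΨ hr hρ hs hN => ?_⟩
  obtain ⟨R, tR, sR, e, hR⟩ := prim ρ hρ hs
  have t2 := tst_gS j hg.tst (by linarith : 0 < L)
  have d1 := Far.dc_pr t2 tR
  have d2 := Far.dc_pr t2 tχ
  have e1 : pr (gS j g L) ρ = fun z => fderiv ℝ (pr (gS j g L) R) z vb +
      ((∫ t, ρ t : ℝ) : ℂ) * pr (gS j g L) χ z := funext fun z => by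
    rw [fd_pr t2 tR, pr, pr, e (be z), Ap.pl_vb, be_vb, map_zero]
    push_cast
    ring
  have a1 := h L _ R _ hL (Api4.dc_fderiv hΨ (X := fun _ => (vb, vb)) contDiff_const)
    ((Api4.tsupport_fderiv_subset _ _).trans hr) tR sR (hN.prim hχ hρ tχ tR sR hCp e hR)
  have a2 := h L Ψ χ _ hL hΨ hr tχ sχ' hχ
  have a3 := h1 (sch Ψ)
  beta_reduce at a3
  rw [one_mul, LineDeriv.lineDerivOpCLM_apply, ← Api4.sch_fderiv hΨ] at a3
  have hc : ‖∫ t, ρ t‖ ≤ M := (norm_integral_le_integral_norm _).trans hN.2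
  have hM := hN.nonneg
  rw [e1, X_add_rZ hΨ (Api4.dc_fderiv d1 contDiff_const) (Api4.dc_const_mul _ d2), X_mul_rZ hΨ d2,
    eq_neg_of_add_eq_zero_right (X_traZ hΨ d1 vb)]
  refine (norm_add_le _ _).trans ?_
  rw [norm_neg, norm_mul, Complex.norm_real]
  refine (add_le_add (a1.trans (mul_le_mul_of_nonneg_right (mul_le_mul_of_nonneg_left
    (a3.trans (sn_up hC1 (le_max_right m m1) _)) hC) (by positivity)))
    (mul_le_mul hc (a2.trans (mul_le_mul_of_nonneg_right (sn_up hC (le_max_left m m1) _) hMχ))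
      (norm_nonneg _) hM)).trans_eq ?_
  ring

theorem bndZ [Fact c.tp] (t : T3Z c) : ∃ m, BndZ c 0 m := by
  obtain ⟨m, h⟩ := bnd0Z t
  have : ∀ i, (∃ m, BndZ c i m) → ∃ m, BndZ c 0 m := fun i => by
    induction i with
    | zero => exact id
    | succ i ih => exact fun ⟨_, h⟩ => ih (bnd_stepZ h)
  exact this _ ⟨m, h⟩

end

end Vale.Agent.P352X.IXH
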