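import Vale.Agent.P352X.R.IX.D
import Vale.Agent.P352Z.P352X.R.IX.C

open Vale.Agent.P352G

/-!
# P352X, row IX, part D: the classes of test functions and the Ward identity (helper80)
-/

set_option linter.all false

open MeasureTheory Filter Topology
open scoped SchwartzMap ComplexConjugate ENNReal ContDiff

namespace Vale.Agent.P352X.IXH

open Vale.Agent.P352 Vale.Agent.P352.GF Vale.Agent.P352.BW Vale.Agent.P352.H246
open Vale.Agent.P352.H496 Vale.Agent.P352.H755 Vale.Agent.P352.H15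
open UniformSpace (Completion)
open Complex (I)
open CK.Near (Nb ex_Nb)

noncomputable section

/-! ## functions on the plane -/

section plane

variable {g : P3 → ℝ} {j : ℕ} {L : ℝ} (i : Fin 2)

end plane

/-! ## moments -/

/-! ## functions of the two legs -/

section legs

variable {G : E5 → ℂ} {K : ℝ → ℝ} {ε : ℝ}

end legs

variable {D : Type*} [NormedAddCommGroup D] [InnerProductSpace ℂ D] [GrD D] {c : CtxZ D}

/-- **The Ward identity of the null rotations.** -/
theorem wardZ [Fact c.tp] (hc : GRPZ c) {G : E5 → ℂ} {K R : ℝ → ℝ} {g : P3 → ℝ} {ε : ℝ} (hG : Dc G) (hK : Tst K)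
    (hg : Tst g) (hR : Tst R) (h : ε ∈ Set.Ioc (0 : ℝ) 1) (i : Fin 2) :
    XZ c (Ps (mu5 (fun u => u.1.2 i - u.1.1.2 i) G) (deriv K) ε) (pr g R) =
      XZ c (Ps (mu5 (fun u => u.1.1.2 i) G) K ε) (pr (da g) R) -
      XZ c (Ps G K ε) (pr (xi i (da g)) R) - XZ c (Ps G K ε) (pr (di i g) fun t => t * R t) -
      ε * XZ c (Ps (fun u => fderiv ℝ G u (NL i u)) K ε) (pr g R) := by
  have d0 := Far.dc_pr hg hR
  have d1 := dc_Ps (dc_mu5 (φ := fun u => u.1.1.2 i) (by fun_prop) hG) hK h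
  have d2 := dc_Ps (Api4.dc_fderiv hG (smooth_NL i)) hK h
  have d3 := dc_Ps (dc_mu5 (φ := fun u => u.1.2 i - u.1.1.2 i) (by fun_prop) hG)
    (Ap.cs_deriv hK) h
  have a1 := X_rotZ hc (dc_Ps hG hK h) d0 i
  have a2 := X_traZ (c := c) d1 d0 va
  simp only [rot_Ps hG hK h.1.ne', rot_pr hg hR] at a1
  simp only [tra_pr hg hR] at a2
  rw [X_add_lZ (Api4.dc_fderiv d1 contDiff_const) (Api4.dc_add (Api4.dc_const_mul _ d2) d3) d0,
    X_add_lZ (Api4.dc_const_mul _ d2) d3 d0, X_mul_lZ d2 d0,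
    X_add_rZ (dc_Ps hG hK h) (Far.dc_pr (tst_xi i (tst_da hg)) hR)
      (Far.dc_pr (tst_di i hg) (Ap.cs_mul_l contDiff_fun_id hR))] at a1
  linear_combination a1 - a2

end

end Vale.Agent.P352X.IXH
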